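import Vale.Agent.P073.BV567.Spec
import Vale.Agent.P073.Gauge.Cells110

/-!
# P073, boundary values (helper567): iteration of `SpecCell` with protected cubes

Variant of `specCells` (`Gauge/Cells110.lean`, helper110): the cubes which do not meet the good
cells and whose image misses the good boxes are never changed.
-/

open Set Metric Topology MeasureTheory Filter
open scoped ENNReal

namespace P073.BV567

open Vale.Agent.P073.St (V)
open Vale.Agent.P073.SQ (ev)
open Vale.Agent.P073.AB
open P073.Net (dyc dyo)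
open P073.Gauge P073.Gauge.C110

theorem specCellsN (hC : SpecCell) : SpecCellsN := by
  classical
  intro p θ M hp hθ hM
  obtain ⟨C, hCpos, H⟩ := hC p θ M hp hθ hM
  refine ⟨C, hCpos, fun k₁ hk₁ => ?_⟩
  obtain ⟨k₀, κ, hκ, H⟩ := H k₁ hk₁
  refine ⟨k₀, κ, hκ, ?_⟩
  intro Ω Λ v I n₂ J A L h hΩ hΛ hI hyp hdisj
  -- the protected cubes
  set I₀ : Set Idx := {q | q ∈ I ∧ (∀ z ∈ J, Disjoint (dyc v q.1 q.2) (interior (dyc v n₂ z))) ∧
    ∀ z ∈ J, ∀ x ∈ dyc v q.1 q.2,
      h.toFun x ∉ A z '' shrink v n₂ z (1 / 2 ^ (n₂ + k₁ + k₀))} with hI₀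
  -- induction
  have main : ∀ J' ⊆ J, ∃ h' : ConHomeo Ω Λ,
      (∀ z ∈ J', CellOut p C k₁ n₂ v z (A z) h'.toFun) ∧
      (∀ e : Idx × Fin 3, (∃ q ∈ I, EdgeOf e q) →
        (∀ z ∈ J', Disjoint (edge v e) (interior (boxB v n₂ k₁ z))) →
        ∀ x ∈ edge v e, h'.toFun x = h.toFun x) ∧
      (∀ z ∈ J, z ∉ J' → CellHyp p θ M κ k₁ k₀ n₂ Λ v I z (A z) (L z) h'.toFun) ∧
      ∀ q ∈ I₀, ∀ x ∈ dyc v q.1 q.2, h'.toFun x = h.toFun x := by
    intro J'
    induction J' using Finset.induction_on with
    | empty =>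
      intro _
      exact ⟨h, by simp, fun e _ _ x _ => rfl, fun z hz _ => hyp z hz, fun q _ x _ => rfl⟩
    | insert z J' hz ih =>
      intro hsub
      have hsub' : J' ⊆ J := fun a ha => hsub (Finset.mem_insert_of_mem ha)
      have hzJ : z ∈ J := hsub (Finset.mem_insert_self z J')
      obtain ⟨h', h1, h2, h3, h4⟩ := ih hsub'
      set m₀ := n₂ + k₁ + k₀ with hm₀
      set I' : Set Idx := {q | q ∈ I ∧ ((∃ z' ∈ J', dyc v q.1 q.2 ⊆ boxR v n₂ k₁ z') ∨ q ∈ I₀)}
        with hI'
      have hz' : ∀ z' ∈ J', z ≠ z' := by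
        rintro z' hz' rfl
        exact hz hz'
      obtain ⟨h'', g1, g2, g3⟩ := H Ω Λ v I I' n₂ z (A z) (L z) h' hΩ hΛ hI (h3 z hzJ hz)
        (fun q hq => hq.1)
        (fun q hq => by
          rcases hq.2 with ⟨z', hz'', hq'⟩ | hq0
          · exact (disjoint_dyc v n₂ (hz' z' hz'')).mono_left
              (hq'.trans ((boxR_subset_boxB _ _ _ _).trans (boxB_subset _ _ _ _)))
          · exact hq0.2.1 z hzJ)
        (fun q hq x hx => by
          rcases hq.2 with ⟨z', hz'', hq'⟩ | hq0
          · rw [(h1 z' hz'').box x (hq' hx)]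
            intro hmem
            exact Set.disjoint_left.1 (hdisj z hzJ z' (hsub' hz'') (hz' z' hz'')) hmem
              ⟨x, boxR_subset_shrink _ _ _ _ _ (hq' hx), rfl⟩
          · rw [h4 q hq0 x hx]
            exact hq0.2.2 z hzJ x hx)
      -- the new map agrees with the old one on the fine edges of the other cells
      have hout : ∀ z' ∈ J, z' ≠ z → ∀ e : Idx × Fin 3, e.1.1 = m₀ → edge v e ⊆ dyc v n₂ z' →
          ∀ x ∈ edge v e, h''.toFun x = h'.toFun x := by
        intro z' hz'J hne e he hsub'' x hx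
        obtain ⟨w, hw1, hw2⟩ := cube_of_edge (j := k₁ + k₀) (by rw [he, hm₀]; ring) hsub''
        have hw3 : ((n₂ + k₁ + k₀, w) : Idx) ∈ I := by
          apply (hyp z' hz'J).fine_sub
          rw [show n₂ + k₁ + k₀ = n₂ + (k₁ + k₀) by ring]
          exact hw2
        refine (g2 e ⟨(n₂ + k₁ + k₀, w), hw3, ?_⟩ x hx).1 ?_
        · rw [show n₂ + k₁ + k₀ = n₂ + (k₁ + k₀) by ring]
          exact hw1
        · intro hxi
          exact Set.disjoint_left.1 (disjoint_dyc v n₂ (Ne.symm hne)) (hsub'' hx)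
            (interior_boxB_subset _ _ _ _ hxi)
      refine ⟨h'', ?_, ?_, ?_, ?_⟩
      · intro z' hz''
        rcases Finset.mem_insert.1 hz'' with rfl | hz''
        · exact g1
        · have hz'J := hsub' hz''
          have hne : z' ≠ z := fun hh => hz' z' hz'' hh.symm
          constructor
          · intro x hx
            obtain ⟨w, hw1, hw2⟩ := exists_fine_cube (k₀ := k₀) hk₁ hx
            have hwI : ((n₂ + k₁ + k₀, w) : Idx) ∈ I := (hyp z' hz'J).fine_sub w
              (hw2.trans ((boxR_subset_boxB _ _ _ _).trans (boxB_subset _ _ _ _)))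
            rw [g3 (n₂ + k₁ + k₀, w) ⟨hwI, Or.inl ⟨z', hz'', hw2⟩⟩ x hw1]
            exact (h1 z' hz'').box x hx
          · intro e he hs1 hs2
            have heq : ∀ x ∈ edge v e, h''.toFun x = h'.toFun x := by
              intro x hx
              obtain ⟨e', he', hxe', hsub''⟩ := exists_fine_edge (j := k₀) he hx
              refine hout z' hz'J hne e' he' (hsub''.trans ?_) x hxe'
              exact fun y hy => boxB_subset _ _ _ _ (hs1 hy).1
            obtain ⟨o1, o2⟩ := (h1 z' hz'').gap e he hs1 hs2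
            refine ⟨fun x hx => ?_, ?_⟩
            · rw [heq x hx]; exact o1 x hx
            · rw [dvar_congr heq]; exact o2
      · intro e he hd x hx
        rw [(g2 e he x hx).1, h2 e he (fun z' hz'' => hd z' (Finset.mem_insert_of_mem hz'')) x hx]
        exact fun hxi => Set.disjoint_left.1 (hd z (Finset.mem_insert_self _ _)) hx hxi
      · intro z₁ hz₁ hz₁'
        have hz₁J' : z₁ ∉ J' := fun hh => hz₁' (Finset.mem_insert_of_mem hh)
        have hne : z₁ ≠ z := fun hh => hz₁' (hh ▸ Finset.mem_insert_self _ _)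
        have old := h3 z₁ hz₁ hz₁J'
        refine ⟨old.aff, old.below, old.above, old.fine, ?_, ?_, old.inside⟩
        · intro e he hs
          have heq := hout z₁ hz₁ hne e he hs
          obtain ⟨o1, o2⟩ := old.own e he hs
          refine ⟨fun x hx => ?_, ?_⟩
          · rw [heq x hx]; exact o1 x hx
          · rw [dvar_congr heq]; exact o2
        · intro e he hs x hx
          rcases (g2 e he x hx).2 with hh | hh
          · obtain ⟨x', hx', hxx⟩ := hh
            rw [← hxx]
            exact old.foreign e he hs x' hx'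
          · intro hmem
            exact Set.disjoint_left.1 (hdisj z₁ hz₁ z hzJ hne) hmem hh
      · intro q hq x hx
        rw [g3 q ⟨hq.1, Or.inr hq⟩ x hx, h4 q hq x hx]
  obtain ⟨h', h1, h2, _, h4⟩ := main J subset_rfl
  exact ⟨h', h1, h2, fun q hq hq1 hq2 => h4 q ⟨hq, hq1, hq2⟩⟩

end P073.BV567
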