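import Vale.Agent.P073.BV567.Tools
import Vale.Agent.P073.AB.Final
import Vale.Agent.P073.SQ.Final

/-!
# P073, boundary values (helper567): the last step (finite distortion) with boundary values

Variant of `exists_err`, `exists_small_err` (`AB/Final.lean`).
-/

open Set Metric Topology MeasureTheory Filter
open scoped ENNReal ContDiff

namespace P073.BV567

open Vale.Agent.P073 Vale.Agent.P073.St
open Vale.Agent.P073.SQ (ev cube Cells dE)
open Vale.Agent.P073.AB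

variable {p : ℝ} {Ω Λ R : Set V}

theorem exists_errN (hSQ : SQ.SpecSQ) {f : V → V} {F : V → Mat} (hp : 1 ≤ p) (hp2 : p < 2)
    (hΩ : IsBoundedDomain Ω) (hΛ : IsBoundedDomain Λ) (hf : IsHomeo Ω Λ f)
    (H : ∀ ε > 0, GoodApproxN p ε Ω Λ f F) :
    ∃ b : ℝ → ℝ≥0∞, (∀ ε, b ε ≠ ⊤) ∧
      Tendsto (fun k : ℕ => b (1 / ((k : ℝ) + 1))) atTop (𝓝 0) ∧
      ∀ ε > 0, ∃ g : V → V, IsDiffeo Ω Λ g ∧ err p Ω f F g ≤ b ε ∧ BdEq Ω f g := by
  have hp0 : 0 < p := by linarith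
  obtain ⟨C, hC, hmain⟩ := hSQ p hp hp2
  obtain ⟨f', hff', hfc, hfc'⟩ := hf
  obtain ⟨D, hD0, hD⟩ := norm_bound_of_domain hΛ
  have hΩv := PK.volume_ne_top_of_domain hΩ
  let b : ℝ → ℝ≥0∞ := fun ε =>
    (ENNReal.ofReal ((2 * D) ^ p) * (ENNReal.ofReal ε + ENNReal.ofReal ε) +
      ENNReal.ofReal ((2 * ε) ^ p) * volume Ω) +
    (ENNReal.ofReal ε + 2 * (C * ENNReal.ofReal ε + ENNReal.ofReal ε + ENNReal.ofReal ε))
  have hbt : ∀ ε, b ε ≠ ⊤ := by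
    intro ε
    have h1 : ENNReal.ofReal ε ≠ ⊤ := ENNReal.ofReal_ne_top
    refine ENNReal.add_ne_top.2 ⟨ENNReal.add_ne_top.2 ⟨?_, ?_⟩, ENNReal.add_ne_top.2 ⟨h1, ?_⟩⟩
    · exact ENNReal.mul_ne_top ENNReal.ofReal_ne_top (ENNReal.add_ne_top.2 ⟨h1, h1⟩)
    · exact ENNReal.mul_ne_top ENNReal.ofReal_ne_top hΩv
    · exact ENNReal.mul_ne_top (by norm_num)
        (ENNReal.add_ne_top.2 ⟨ENNReal.add_ne_top.2 ⟨ENNReal.mul_ne_top hC h1, h1⟩, h1⟩)
  have hstep : ∀ ε > 0, ∃ g : V → V, IsDiffeo Ω Λ g ∧ err p Ω f F g ≤ b ε ∧ BdEq Ω f g := by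
    intro ε hε
    obtain ⟨R, W, G, hRm, hRΩ, hG, h1, h2, h3, ⟨K, hKΩ, hKm, hKv, hKR, hKi⟩, hbd, K₀, hK₀, hK₀c,
      hW⟩ := H ε hε
    have := W.cnt
    have hGs := diffeo_smooth hG
    obtain ⟨ε', hε'0, hε'⟩ := ENNReal.exists_pos_sum_of_countable'
      (ε := ENNReal.ofReal ε) (by simpa using hε) W.ι
    choose d hd0 hd using exists_modulus W hGs.continuousOn hε
    obtain ⟨s, hs, hsR, hsi, hsE⟩ := hmain Ω Λ R W G ε' d hΩ.1 hΛ.1 hG
      (fun i => (hε'0 i).ne') hd0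
    have hg := isDiffeo_comp hs hG
    have hgs := diffeo_smooth hg
    refine ⟨G ∘ s, hg, add_le_add ?_ ?_,
      (bdEq_of_bdClose hΩ.1 (bdd_of_domain hΩ) hbd).trans
        (bdEq_comp hΩ.1 (bdd_of_domain hΩ) W hK₀ hK₀c hW hs hsR hsi)⟩
    · refine zero_part hp hΩ.1 W (G := G) (s := s) (f := f) (g := G ∘ s) hε (fun x => rfl)
        hfc hgs.continuousOn (fun x hx => ?_) hε'.le hd hsR hsi hKv hKR hKi
        fun i => (hsE i).2
      have e1 := hD _ (diffeo_maps hg hx)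
      have e2 := hD _ (hff'.1 x hx).1
      refine (norm_sub_le _ _).trans ?_
      linarith
    · exact deriv_part hp hp2 hΩ.1 W hRm hRΩ hgs hGs
        (fun x hx => by simp only [Function.comp, hsR x hx]) hε'.le h1 h2 h3
        fun i => (hsE i).1
  have hlim0 : Tendsto (fun k : ℕ => 1 / ((k : ℝ) + 1)) atTop (𝓝 0) :=
    tendsto_one_div_add_atTop_nhds_zero_nat
  have hlim : Tendsto (fun k : ℕ => b (1 / ((k : ℝ) + 1))) atTop (𝓝 0) := by
    have e1 : Tendsto (fun k : ℕ => ENNReal.ofReal (1 / ((k : ℝ) + 1))) atTop (𝓝 0) := by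
      have := ENNReal.tendsto_ofReal hlim0
      simpa using this
    have e2 : Tendsto (fun k : ℕ => ENNReal.ofReal ((2 * (1 / ((k : ℝ) + 1))) ^ p)) atTop
        (𝓝 0) := by
      have h1 : Tendsto (fun k : ℕ => (2 * (1 / ((k : ℝ) + 1))) ^ p) atTop
          (𝓝 ((2 * 0) ^ p)) := (hlim0.const_mul 2).rpow_const (Or.inr hp0.le)
      rw [mul_zero, Real.zero_rpow hp0.ne'] at h1
      have := ENNReal.tendsto_ofReal h1
      simpa using this
    have e3 : Tendsto (fun k : ℕ => ENNReal.ofReal ((2 * D) ^ p) *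
        (ENNReal.ofReal (1 / ((k : ℝ) + 1)) + ENNReal.ofReal (1 / ((k : ℝ) + 1)))) atTop
        (𝓝 (ENNReal.ofReal ((2 * D) ^ p) * (0 + 0))) :=
      ENNReal.Tendsto.const_mul (e1.add e1) (Or.inr ENNReal.ofReal_ne_top)
    have e4 : Tendsto (fun k : ℕ => ENNReal.ofReal ((2 * (1 / ((k : ℝ) + 1))) ^ p) * volume Ω)
        atTop (𝓝 (0 * volume Ω)) := ENNReal.Tendsto.mul_const e2 (Or.inr hΩv)
    have e5 : Tendsto (fun k : ℕ => C * ENNReal.ofReal (1 / ((k : ℝ) + 1))) atTop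
        (𝓝 (C * 0)) := ENNReal.Tendsto.const_mul e1 (Or.inr hC)
    have e6 := (e3.add e4).add (e1.add (ENNReal.Tendsto.const_mul (a := 2)
      ((e5.add e1).add e1) (Or.inr (by norm_num))))
    simpa using e6
  exact ⟨b, hbt, hlim, hstep⟩

/-- **(M1)** with boundary values, from `SpecFDN` -/
theorem specM1N (hFD : SpecFDN) : SpecM1N := by
  intro p Ω Λ f F hp hp2 hΩ hΛ hf hF hfd ε hε
  obtain ⟨b, hbt, hlim, hstep⟩ := exists_errN (F := F) SQ.specSQ hp hp2 hΩ hΛ hf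
    fun η hη => hFD p Ω Λ f F hp hp2 hΩ hΛ hf hF hfd η hη
  obtain ⟨k, hk⟩ := (hlim.eventually (gt_mem_nhds (ENNReal.ofReal_pos.2 hε))).exists
  obtain ⟨g, hg, hg', hg''⟩ := hstep (1 / ((k : ℝ) + 1)) (by positivity)
  exact ⟨g, hg, hg'.trans hk.le, hg''⟩

end P073.BV567
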