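import Vale.Agent.P073.BV567.Tools
import Vale.Agent.P073.RED.Red225
import Vale.Agent.P073.RED.Vit
import Vale.Agent.P073.RED720.GlueS

/-!
# P073, boundary values (helper567): the reduction to finite distortion, with boundary values

Variant of `specRED` (`RED/Red225.lean`, helper225).
-/

open Set Metric Topology MeasureTheory Filter
open scoped ENNReal ContDiff

namespace P073.BV567

open Vale.Agent.P073 Vale.Agent.P073.St
open Vale.Agent.P073.SQ (ev)
open Vale.Agent.P073.AB (cl err FinDist)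
open Vale.Agent.P073.PK (cl_apply)
open Vale.Agent.P073.RED Vale.Agent.P073.RED.Red225 Vale.Agent.P073.RED.GlueH

/-- **the full theorem with boundary values**, from (M1) with boundary values and the fine cells -/
theorem specAllN (hM1 : SpecM1N) (hFine : SpecFine) : SpecAllN := by
  intro p Ω Λ f F hp hp2 hΩ hΛ hf hF ε hε
  have hp0 : 0 ≤ p := by linarith
  have hΩt : volume Ω ≠ ⊤ := PK.volume_ne_top_of_domain hΩ
  set m : ℝ := (volume Ω).toReal with hm
  have hm0 : 0 ≤ m := ENNReal.toReal_nonneg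
  have hmv : volume Ω = ENNReal.ofReal m := (ENNReal.ofReal_toReal hΩt).symm
  set ε₁ : ℝ := min 1 (ε / (8 * (m + 1))) with hε₁
  have hε₁0 : 0 < ε₁ := lt_min one_pos (by positivity)
  have hε₁1 : ε₁ ≤ 1 := min_le_left _ _
  obtain ⟨ι, K, u, U, hι, hC, hd, hn⟩ := specVit p Ω f F ε₁ hΩ (hFine p Ω Λ f F hp hp2 hΩ hΛ hf hF ε₁
    hε₁0)
  have hf1 := specGlueH p Ω Λ f F hp hΩ hΛ hf ι hι ε₁ K u U hC hd
  have hF1 := specGlueS p Ω Λ f F hp hΩ hΛ hf hF ι hι ε₁ K u U hC hd
  obtain ⟨g, hg, hge, hgb⟩ := hM1 p Ω Λ _ _ hp hp2 hΩ hΛ hf1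
    hF1 (finDist hC hd hn) (ε / 4) (by linarith)
  refine ⟨g, hg, ?_, (bdEq_glue hΩ hC hd).trans hgb⟩
  have hfc : ContinuousOn f Ω := by
    obtain ⟨_, _, h, _⟩ := hf
    exact h
  have hgc : ContinuousOn (glue K u) Ω := continuousOn_glue hΩ hfc hC hd
  have hmu : AEMeasurable (fun x => ENNReal.ofReal (‖glue K u x‖ ^ p)) (volume.restrict Ω) :=
    ((hgc.aemeasurable hΩ.1.measurableSet).norm.pow_const p).ennreal_ofReal
  have hmU : ∀ j, AEMeasurable (fun x => ENNReal.ofReal (‖cl (glue K U x) (ev j)‖ ^ p))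
      (volume.restrict Ω) := by
    intro j
    have h1 : AEMeasurable (fun x => cl (F x + glue K U x) (ev j)) (volume.restrict Ω) :=
      ((ContinuousLinearMap.apply ℝ V (ev j)).continuous.comp_aestronglyMeasurable
        (PK.IsSob.aesm hF1)).aemeasurable
    have h2 : AEMeasurable (fun x => cl (F x) (ev j)) (volume.restrict Ω) :=
      ((ContinuousLinearMap.apply ℝ V (ev j)).continuous.comp_aestronglyMeasurable
        (PK.IsSob.aesm hF)).aemeasurable
    have e : (fun x => cl (glue K U x) (ev j)) =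
        fun x => cl (F x + glue K U x) (ev j) - cl (F x) (ev j) := by
      funext x i
      rw [Pi.sub_apply, cl_apply, cl_apply, cl_apply, ← Finset.sum_sub_distrib]
      exact Finset.sum_congr rfl fun l _ => by simp only [Pi.add_apply]; ring
    have h3 : AEMeasurable (fun x => cl (glue K U x) (ev j)) (volume.restrict Ω) := by
      rw [e]; exact h1.sub h2
    exact (h3.norm.pow_const p).ennreal_ofReal
  -- the two parts of the error
  have hA : ∫⁻ x in Ω, ENNReal.ofReal (‖g x - f x‖ ^ p) ≤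
      2 * ((∫⁻ x in Ω, ENNReal.ofReal (‖g x - (f x + glue K u x)‖ ^ p)) +
        ∫⁻ x in Ω, ENNReal.ofReal (‖glue K u x‖ ^ p)) := by
    rw [← lintegral_add_right' _ hmu, ← lintegral_const_mul' _ _ (by norm_num)]
    refine lintegral_mono fun x => ?_
    have h1 := AB.add_rpow_le hp hp2 (g x - (f x + glue K u x)) (glue K u x)
    have e : g x - (f x + glue K u x) + glue K u x = g x - f x := by abel
    rwa [e] at h1
  have hB : ∀ j, ∫⁻ x in Ω, ENNReal.ofReal (‖fderiv ℝ g x (ev j) - cl (F x) (ev j)‖ ^ p) ≤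
      2 * ((∫⁻ x in Ω, ENNReal.ofReal (‖fderiv ℝ g x (ev j) -
        cl (F x + glue K U x) (ev j)‖ ^ p)) +
        ∫⁻ x in Ω, ENNReal.ofReal (‖cl (glue K U x) (ev j)‖ ^ p)) := by
    intro j
    rw [← lintegral_add_right' _ (hmU j), ← lintegral_const_mul' _ _ (by norm_num)]
    refine lintegral_mono fun x => ?_
    have h1 := AB.add_rpow_le hp hp2 (fderiv ℝ g x (ev j) - cl (F x + glue K U x) (ev j))
      (cl (glue K U x) (ev j))
    have e : fderiv ℝ g x (ev j) - cl (F x + glue K U x) (ev j) + cl (glue K U x) (ev j) =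
        fderiv ℝ g x (ev j) - cl (F x) (ev j) := by
      funext i
      simp only [Pi.sub_apply, Pi.add_apply, cl_apply, add_mul, Finset.sum_add_distrib]
      ring
    rwa [e] at h1
  have hE : err p Ω f F g ≤ 2 * err p Ω (fun x => f x + glue K u x)
      (fun x => F x + glue K U x) g + 4 * (ENNReal.ofReal ε₁ * volume Ω) := by
    have h1 := sup_le hp hε₁0.le hε₁1 hC hd
    have h2 := energy_le hp hC hd
    unfold err
    calc (∫⁻ x in Ω, ENNReal.ofReal (‖g x - f x‖ ^ p)) +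
        ∑ j, ∫⁻ x in Ω, ENNReal.ofReal (‖fderiv ℝ g x (ev j) - cl (F x) (ev j)‖ ^ p)
        ≤ 2 * ((∫⁻ x in Ω, ENNReal.ofReal (‖g x - (f x + glue K u x)‖ ^ p)) +
          ∫⁻ x in Ω, ENNReal.ofReal (‖glue K u x‖ ^ p)) +
          ∑ j, 2 * ((∫⁻ x in Ω, ENNReal.ofReal (‖fderiv ℝ g x (ev j) -
          cl (F x + glue K U x) (ev j)‖ ^ p)) +
          ∫⁻ x in Ω, ENNReal.ofReal (‖cl (glue K U x) (ev j)‖ ^ p)) :=
          add_le_add hA (Finset.sum_le_sum fun j _ => hB j)
      _ = 2 * ((∫⁻ x in Ω, ENNReal.ofReal (‖g x - (f x + glue K u x)‖ ^ p)) +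
          ∑ j, ∫⁻ x in Ω, ENNReal.ofReal (‖fderiv ℝ g x (ev j) -
          cl (F x + glue K U x) (ev j)‖ ^ p)) +
          2 * ((∫⁻ x in Ω, ENNReal.ofReal (‖glue K u x‖ ^ p)) +
          ∑ j, ∫⁻ x in Ω, ENNReal.ofReal (‖cl (glue K U x) (ev j)‖ ^ p)) := by
          rw [← Finset.mul_sum, Finset.sum_add_distrib]
          ring
      _ ≤ 2 * ((∫⁻ x in Ω, ENNReal.ofReal (‖g x - (f x + glue K u x)‖ ^ p)) +
          ∑ j, ∫⁻ x in Ω, ENNReal.ofReal (‖fderiv ℝ g x (ev j) -
          cl (F x + glue K U x) (ev j)‖ ^ p)) +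
          2 * (ENNReal.ofReal ε₁ * volume Ω + ENNReal.ofReal ε₁ * volume Ω) := by gcongr
      _ = _ := by ring
  refine hE.trans ?_
  have h4 : (4 : ℝ≥0∞) = ENNReal.ofReal 4 := by norm_num
  have h2 : (2 : ℝ≥0∞) = ENNReal.ofReal 2 := by norm_num
  calc 2 * err p Ω (fun x => f x + glue K u x) (fun x => F x + glue K U x) g +
        4 * (ENNReal.ofReal ε₁ * volume Ω)
      ≤ 2 * ENNReal.ofReal (ε / 4) + 4 * (ENNReal.ofReal ε₁ * ENNReal.ofReal m) := by
        rw [hmv]; gcongr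
    _ = ENNReal.ofReal (2 * (ε / 4) + 4 * (ε₁ * m)) := by
        rw [ENNReal.ofReal_add (by positivity) (by positivity), ENNReal.ofReal_mul (by norm_num),
          ENNReal.ofReal_mul (by norm_num), ENNReal.ofReal_mul hε₁0.le, ← h4, ← h2]
    _ ≤ ENNReal.ofReal ε := by
        apply ENNReal.ofReal_le_ofReal
        have h5 : ε₁ * (8 * (m + 1)) ≤ ε := by
          calc ε₁ * (8 * (m + 1)) ≤ ε / (8 * (m + 1)) * (8 * (m + 1)) := by
                gcongr; exact min_le_right _ _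
            _ = ε := by field_simp
        nlinarith

end P073.BV567
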