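import Vale.Agent.P073.Spec.Gauge
import Vale.Agent.P073.AB.FinalA
import Vale.Agent.P073.LOC.Spec752

/-!
# P073, boundary values (helper567): literal Props

Aim: the approximating diffeomorphisms have the same boundary behaviour as the `W^{1,p}`
homeomorphism `f : Ω → Λ`: the same limits at the boundary points of `Ω`.

`BdClose Ω f G` (`LOC/Spec752.lean`): for every `δ > 0` there is a compact `K ⊆ Ω` with
`‖G x - f x‖ ≤ δ` for all `x ∈ Ω \ K`.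

* `SpecCellsN` : `SpecCells` + the new map is the old one on all cubes which do not meet the good
  cells and whose image misses the good boxes.
* `SpecGaugeN` : `SpecGauge` + `BdClose Ω f G`.
* `SpecFDN`    : `SpecFD` for `GoodApproxN`.
-/

open Set Metric Topology MeasureTheory Filter
open scoped ENNReal

namespace P073.BV567

open Vale.Agent.P073.St (V Mat IsHomeo IsDiffeo IsBoundedDomain IsSobolev)
open Vale.Agent.P073.SQ (ev cube Cells)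
open Vale.Agent.P073.AB
open Vale.Agent.P073.LOC (BdClose)
open P073.Gauge (CellHyp CellOut)
open P073.Net (dyc dyo)

/-- the hypotheses of `SpecCells`; conclusion with protected cubes -/
def SpecCellsN : Prop :=
  ∀ (p θ M : ℝ), 1 ≤ p → 0 < θ → 0 < M → ∃ C > 0, ∀ k₁ : ℕ, 3 ≤ k₁ → ∃ k₀ : ℕ, ∃ κ > 0,
    ∀ (Ω Λ : Set V) (v : V) (I : Set Idx) (n₂ : ℕ) (J : Finset (Fin 3 → ℤ))
      (A : (Fin 3 → ℤ) → V → V) (L : (Fin 3 → ℤ) → V →L[ℝ] V) (h : ConHomeo Ω Λ),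
      IsOpen Ω → IsOpen Λ → Part Ω v I →
      (∀ z ∈ J, CellHyp p θ M κ k₁ k₀ n₂ Λ v I z (A z) (L z) h.toFun) →
      (∀ z ∈ J, ∀ z' ∈ J, z ≠ z' →
        Disjoint (A z '' shrink v n₂ z (1 / 2 ^ (n₂ + k₁ + k₀)))
          (A z' '' shrink v n₂ z' (1 / 2 ^ (n₂ + k₁ + k₀)))) →
      ∃ h' : ConHomeo Ω Λ, (∀ z ∈ J, CellOut p C k₁ n₂ v z (A z) h'.toFun) ∧
        (∀ e : Idx × Fin 3, (∃ q ∈ I, EdgeOf e q) →
          (∀ z ∈ J, Disjoint (edge v e) (interior (boxB v n₂ k₁ z))) →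
          ∀ x ∈ edge v e, h'.toFun x = h.toFun x) ∧
        ∀ q ∈ I, (∀ z ∈ J, Disjoint (dyc v q.1 q.2) (interior (dyc v n₂ z))) →
          (∀ z ∈ J, ∀ x ∈ dyc v q.1 q.2,
            h.toFun x ∉ A z '' shrink v n₂ z (1 / 2 ^ (n₂ + k₁ + k₀))) →
          ∀ x ∈ dyc v q.1 q.2, h'.toFun x = h.toFun x

/-- `SpecGauge` with closeness at the boundary -/
def SpecGaugeN : Prop :=
  ∀ (p θ M : ℝ), 1 ≤ p → p < 2 → 0 < θ → 0 < M → ∃ C > 0, ∀ k₁ : ℕ, 3 ≤ k₁ → ∃ k₀ : ℕ, ∃ κ > 0,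
    ∀ (ε : ℝ) (Ω Λ : Set V) (f : V → V) (F : V → Mat), 0 < ε → IsBoundedDomain Ω →
    IsBoundedDomain Λ → IsHomeo Ω Λ f → IsSobolev p Ω f F →
    ∀ c : Choice p ε θ M κ k₁ k₀ Ω Λ f F, ∀ δ : Idx × Fin 3 → ℝ, (∀ e, 0 < δ e) → ∀ δ₀ > 0,
    ∃ G : V → V, IsDiffeo Ω Λ G ∧ BdClose Ω f G ∧
      (∀ e : Idx × Fin 3, (∃ q ∈ tiles Ω c.n₀ c.v, EdgeOf e q) →
        (∀ z ∈ c.J, Disjoint (edge c.v e) (interior (boxB c.v c.n₂ k₁ z))) →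
        (∀ x ∈ edge c.v e, ‖G x - f x‖ ≤ δ e) ∧
        eInt c.v e (fun x => ENNReal.ofReal (‖fderiv ℝ G x (ev e.2) - cl (F x) (ev e.2)‖ ^ p)) ≤
          ENNReal.ofReal (δ e)) ∧
      ∀ z ∈ c.J,
        (∀ x ∈ boxR c.v c.n₂ k₁ z, ‖G x - c.A z x‖ ≤ δ₀) ∧
        ∑ j, ∫⁻ x in boxR c.v c.n₂ k₁ z,
          ENNReal.ofReal (‖fderiv ℝ G x (ev j) - c.L z (ev j)‖ ^ p) ≤ ENNReal.ofReal δ₀ ∧
        (∀ s : Idx × Fin 3, s.1.1 = c.n₂ + k₁ → squ c.v s ⊆ frontier (boxR c.v c.n₂ k₁ z) →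
          ∑ j ∈ Finset.univ.erase s.2, ∫⁻ x in dyc c.v s.1.1 s.1.2,
            ENNReal.ofReal (‖fderiv ℝ G (Function.update x s.2 (pt c.v s.1.1 s.1.2 s.2)) (ev j)‖
              ^ p) ≤ ENNReal.ofReal (C / 2 ^ (3 * (c.n₂ + k₁)))) ∧
        ∀ e : Idx × Fin 3, e.1.1 = c.n₂ + k₁ →
          edge c.v e ⊆ boxB c.v c.n₂ k₁ z \ interior (boxR c.v c.n₂ k₁ z) →
          ¬ edge c.v e ⊆ frontier (boxB c.v c.n₂ k₁ z) →
          (∀ x ∈ edge c.v e, ‖G x - c.A z x‖ ≤ 1 / 2 ^ c.n₂) ∧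
          eInt c.v e (fun x => ENNReal.ofReal (‖fderiv ℝ G x (ev e.2)‖ ^ p)) ≤
            ENNReal.ofReal (C / 2 ^ (c.n₂ + k₁))

/-- `GoodApprox` with closeness at the boundary; away from the compact set `K₀` the cells are of
Whitney type -/
def GoodApproxN (p ε : ℝ) (Ω Λ : Set V) (f : V → V) (F : V → Mat) : Prop :=
  ∃ (R : Set V) (W : Cells Ω R) (G : V → V), MeasurableSet R ∧ R ⊆ Ω ∧ IsDiffeo Ω Λ G ∧
    ∑ j, ∫⁻ x in R, ENNReal.ofReal (‖fderiv ℝ G x (ev j) - cl (F x) (ev j)‖ ^ p) ≤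
      ENNReal.ofReal ε ∧
    ∑' i, W.en p G i ≤ ENNReal.ofReal ε ∧
    ∑ j, ∫⁻ x in Ω \ R, ENNReal.ofReal (‖cl (F x) (ev j)‖ ^ p) ≤ ENNReal.ofReal ε ∧
    (∃ K ⊆ Ω, MeasurableSet K ∧ volume (Ω \ K) ≤ ENNReal.ofReal ε ∧
      (∀ x ∈ K ∩ R, ‖G x - f x‖ ≤ ε) ∧
      ∀ i, ∀ x ∈ K ∩ cube (W.c i) (W.ρ i), ∀ y ∈ W.net i, ‖G y - f x‖ ≤ ε) ∧
    BdClose Ω f G ∧
    ∃ K₀ ⊆ Ω, IsCompact K₀ ∧ ∀ i, ∀ x ∈ cube (W.c i) (W.ρ i), x ∉ K₀ →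
      2 * W.ρ i ≤ infDist x Ωᶜ

/-- first milestone, with closeness at the boundary -/
def SpecFDN : Prop :=
  ∀ (p : ℝ) (Ω Λ : Set V) (f : V → V) (F : V → Mat), 1 ≤ p → p < 2 → IsBoundedDomain Ω →
    IsBoundedDomain Λ → IsHomeo Ω Λ f → IsSobolev p Ω f F → FinDist Ω F →
    ∀ ε > 0, GoodApproxN p ε Ω Λ f F

end P073.BV567
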