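import Vale.Agent.P073.BV567.Spec
import Vale.Agent.P073.AB.Sum293f

/-!
# P073, boundary values (helper567): `SpecChoice → SpecGaugeN → SpecFDN`

Adapted from `AB/Sum293f.lean` and `AB/Sum293.lean` (helper293): the gauge map is close to `f` at
the boundary, and away from the good cells all cells are of Whitney type.
-/

namespace P073.BV567

open MeasureTheory Set Filter Topology Metric Vale.Agent.P073.St
open Vale.Agent.P073.SQ (ev cube Cells dE faceE edgesE)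
open P073.Net (IsTile dyc dyo SizeFn)
open Vale.Agent.P073.HB (GoodSeg)
open Vale.Agent.P073.AB Vale.Agent.P073.AB.S293
open Vale.Agent.P073.LOC (BdClose)
open scoped ContDiff ENNReal

variable {p ε ε₁ θ M κ : ℝ} {k₁ k₀ : ℕ} {Ω Λ : Set V} {f : V → V} {F : V → Mat}

/-- adapted from `AB/Sum293f.lean` (helper293) -/
theorem goodApproxN_of (hp : 1 ≤ p) (hp2 : p < 2) (hΩb : IsBoundedDomain Ω)
    (c : Choice p ε₁ θ M κ k₁ k₀ Ω Λ f F)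
    (hκ : κ ≤ 1) (hM : 0 < M) (hε₁ : 0 < ε₁) (hk₁ : 3 ≤ k₁) (δ : Idx × Fin 3 → ℝ)
    (hδ : ∀ e, 0 < δ e) (hδ1 : ∀ e, δ e ≤ 1 / 2 ^ e.1.1)
    (hδ2 : ∑' e, ENNReal.ofReal (δ e) ≤ ENNReal.ofReal ε₁) {δ₀ : ℝ} (hδ₀ : 0 < δ₀)
    (hδ₀1 : δ₀ ≤ ε₁) (hδ₀2 : c.J.card * δ₀ ≤ ε₁) {G : V → V} (hG : IsDiffeo Ω Λ G)
    (hBd : BdClose Ω f G) {C : ℝ}
    (hC : 0 < C)
    (hGe : ∀ e : Idx × Fin 3, (∃ q ∈ tiles Ω c.n₀ c.v, EdgeOf e q) →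
        (∀ z ∈ c.J, Disjoint (edge c.v e) (interior (boxB c.v c.n₂ k₁ z))) →
        (∀ x ∈ edge c.v e, ‖G x - f x‖ ≤ δ e) ∧
        eInt c.v e (fun x => ENNReal.ofReal (‖fderiv ℝ G x (ev e.2) - cl (F x) (ev e.2)‖ ^ p)) ≤
          ENNReal.ofReal (δ e))
    (hGb : ∀ z ∈ c.J,
        (∀ x ∈ boxR c.v c.n₂ k₁ z, ‖G x - c.A z x‖ ≤ δ₀) ∧
        ∑ j, ∫⁻ x in boxR c.v c.n₂ k₁ z,
          ENNReal.ofReal (‖fderiv ℝ G x (ev j) - c.L z (ev j)‖ ^ p) ≤ ENNReal.ofReal δ₀ ∧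
        (∀ s : Idx × Fin 3, s.1.1 = c.n₂ + k₁ → squ c.v s ⊆ frontier (boxR c.v c.n₂ k₁ z) →
          ∑ j ∈ Finset.univ.erase s.2, ∫⁻ x in dyc c.v s.1.1 s.1.2,
            ENNReal.ofReal (‖fderiv ℝ G (Function.update x s.2 (pt c.v s.1.1 s.1.2 s.2)) (ev j)‖
              ^ p) ≤ ENNReal.ofReal (C / 2 ^ (3 * (c.n₂ + k₁)))) ∧
        ∀ e : Idx × Fin 3, e.1.1 = c.n₂ + k₁ →
          edge c.v e ⊆ boxB c.v c.n₂ k₁ z \ interior (boxR c.v c.n₂ k₁ z) →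
          ¬ edge c.v e ⊆ frontier (boxB c.v c.n₂ k₁ z) →
          (∀ x ∈ edge c.v e, ‖G x - c.A z x‖ ≤ 1 / 2 ^ c.n₂) ∧
          eInt c.v e (fun x => ENNReal.ofReal (‖fderiv ℝ G x (ev e.2)‖ ^ p)) ≤
            ENNReal.ofReal (C / 2 ^ (c.n₂ + k₁)))
    {C₀ W : ℝ} (hC₀ : 0 < C₀) (hW : volume Ω ≤ ENNReal.ofReal W) (hW0 : 0 ≤ W)
    (hgeo : ∀ (Ω : Set V) (v : V) (n₂ k₁ k₀ : ℕ) (J : Finset (Fin 3 → ℤ)),
    IsOpen Ω → Bornology.IsBounded Ω → Ω.Nonempty → 3 ≤ k₁ → Core Ω v n₂ k₁ k₀ J →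
    ∃ (hI : Part Ω v (newI Ω v n₂ k₁ k₀ J)) (hP : newP v n₂ k₁ J ⊆ newI Ω v n₂ k₁ k₀ J)
      (hΩ : IsOpen Ω),
      (⋃ q ∈ newP v n₂ k₁ J, dyc v q.1 q.2 = ⋃ z ∈ J, boxR v n₂ k₁ z) ∧
      (∀ z ∈ J, ∀ z' ∈ J, z ≠ z' → Disjoint (boxB v n₂ k₁ z) (boxB v n₂ k₁ z')) ∧
      (∀ z ∈ J, dyc v n₂ z ⊆ Ω) ∧
      (∀ q ∈ newI Ω v n₂ k₁ k₀ J \ newP v n₂ k₁ J, q ∈ IT Ω v n₂ k₁ k₀ J → ∀ s,
        MinSq v (newI Ω v n₂ k₁ k₀ J) s → squ v s ⊆ dyc v q.1 q.2 →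
        q.1 ≤ s.1.1 ∧ s.1.1 ≤ q.1 + 2 ∧ (∀ r ∈ newP v n₂ k₁ J, ¬ squ v s ⊆ dyc v r.1 r.2) ∧
        ∀ e ∈ sqE s, e ∈ GE Ω v n₂ k₁ k₀ J) ∧
      (∀ q ∈ newI Ω v n₂ k₁ k₀ J \ newP v n₂ k₁ J, q ∉ IT Ω v n₂ k₁ k₀ J → q.1 = n₂ + k₁ ∧
        ∃ z ∈ J, dyc v q.1 q.2 ⊆ boxB v n₂ k₁ z ∧ ∀ s,
        MinSq v (newI Ω v n₂ k₁ k₀ J) s → squ v s ⊆ dyc v q.1 q.2 →
        (s.1.1 = n₂ + k₁ ∧ squ v s ⊆ frontier (boxR v n₂ k₁ z) ∧
          ∃ r ∈ newP v n₂ k₁ J, squ v s ⊆ dyc v r.1 r.2) ∨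
        ((∀ r ∈ newP v n₂ k₁ J, ¬ squ v s ⊆ dyc v r.1 r.2) ∧
          ((s.1.1 = n₂ + k₁ + k₀ ∧
            ∀ e ∈ sqE s, e ∈ GE Ω v n₂ k₁ k₀ J ∧ edge v e ⊆ dyc v n₂ z) ∨
          (s.1.1 = n₂ + k₁ ∧ ∀ e ∈ sqE s, e ∈ GapE v n₂ k₁ z ∨ e ∈ FrE Ω v n₂ k₁ k₀ J z)))) ∧
      (∀ e ∈ GE Ω v n₂ k₁ k₀ J, ∀ z ∈ J, edge v e ⊆ dyc v n₂ z → e.1.1 = n₂ + k₁ + k₀) ∧
      (∀ e ∈ GE Ω v n₂ k₁ k₀ J, edge v e ⊆ Ω ∧ n₂ + k₁ + k₀ ≤ e.1.1) ∧
      (∀ g : Idx × Fin 3 → ℝ≥0∞,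
        ∑' i : {i : (P86.cells hΩ hI hP).ι // i.1 ∈ IT Ω v n₂ k₁ k₀ J},
          ∑ t ∈ (P86.cells hΩ hI hP).bd i.1, ∑ e ∈ sqE t.1, g e ≤
        ENNReal.ofReal C₀ * ∑' e : GE Ω v n₂ k₁ k₀ J, g e.1) ∧
      (∀ i : (P86.cells hΩ hI hP).ι, i.1.1 = n₂ + k₁ →
        (((P86.cells hΩ hI hP).bd i).filter fun t => t.1.1.1 = n₂ + k₁ + k₀).card ≤ 6 * 4 ^ k₀ ∧
        (((P86.cells hΩ hI hP).bd i).filter fun t => t.1.1.1 = n₂ + k₁).card ≤ 6) ∧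
      ({q | q ∈ newI Ω v n₂ k₁ k₀ J \ newP v n₂ k₁ J ∧ q ∉ IT Ω v n₂ k₁ k₀ J}.Finite ∧
        ({q | q ∈ newI Ω v n₂ k₁ k₀ J \ newP v n₂ k₁ J ∧ q ∉ IT Ω v n₂ k₁ k₀ J}.ncard : ℝ) ≤
          C₀ * J.card * 4 ^ k₁) ∧
      (∀ z ∈ J, {e | e ∈ GE Ω v n₂ k₁ k₀ J ∧ edge v e ⊆ dyc v n₂ z}.Finite ∧
        ({e | e ∈ GE Ω v n₂ k₁ k₀ J ∧ edge v e ⊆ dyc v n₂ z}.ncard : ℝ) ≤
          C₀ * 8 ^ (k₁ + k₀) / 2 ^ k₁) ∧
      ENNReal.ofReal (J.card / 8 ^ n₂) ≤ volume Ω ∧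
      (∀ z ∈ J, volume (dyc v n₂ z \ boxR v n₂ k₁ z) ≤ ENNReal.ofReal (C₀ / 2 ^ k₁ / 8 ^ n₂)))
    (num1 : 4 * ε₁ ≤ ε)
    (num2 : 16 * C₀ * ε₁ + C₀ * W * (4 * C₀ * (6 + 4 * M ^ p) + (48 * (6 + 4 * M ^ p) + 30 * C)) /
      2 ^ k₁ ≤ ε)
    (num3 : 3 * ε₁ + 6 * M ^ p * C₀ * W / 2 ^ k₁ ≤ ε) :
    GoodApproxN p ε Ω Λ f F := by
  classical
  have hb := isBounded_of hΩb
  obtain ⟨hI, hP, hΩ, gR, gdis, gsub, g1, g2, g3, g3', g4, g5, g6, g7, g8, g9⟩ :=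
    hgeo Ω c.v c.n₂ k₁ k₀ c.J hΩb.1 hb hΩb.2.1.nonempty hk₁ (core' c)
  have hn := c.eqn
  have hMp : 0 ≤ M ^ p := by positivity
  have hL : ∀ z ∈ c.J, ∀ j, ‖c.L z (ev j)‖ ≤ M := fun z hz j => by
    have := c.above z hz (ev j)
    rwa [ev_norm, mul_one] at this
  -- good edges
  have hGE : ∀ e ∈ GE Ω c.v c.n₂ k₁ k₀ c.J, (∀ x ∈ edge c.v e, ‖G x - f x‖ ≤ δ e) ∧
      eInt c.v e (fun x => ENNReal.ofReal (‖fderiv ℝ G x (ev e.2) - cl (F x) (ev e.2)‖ ^ p)) ≤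
        ENNReal.ofReal (δ e) := by
    intro e he
    refine hGe e ?_ he.2
    rw [hn]; exact he.1
  have D : Dat p (6 + 4 * M ^ p) C Ω c.v c.n₂ k₁ k₀ c.J G := by
    refine ⟨fun e he z hz hsub => ?_, fun z hz e he => ?_, fun z hz s hs hfr => ?_⟩
    · have hgen := g3 e he z hz hsub
      have hown := (c.own z hz e (by rw [hn]; exact hgen) hsub).2
      rw [← hgen]
      refine eInt_G_le' hp hp2 c.rat (g3' e he).1 G hM
        ((hGE e he).2.trans (ENNReal.ofReal_le_ofReal (hδ1 e))) (c.L z) (hL z hz _)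
        (hown.trans (ENNReal.ofReal_le_ofReal ?_))
      rw [hn, hgen]
      gcongr
    · exact ((hGb z hz).2.2.2 e he.1 he.2.1 he.2.2).2
    · have := (hGb z hz).2.2.1 s hs hfr
      rw [faceE_eq]
      refine this.trans (ENNReal.ofReal_le_ofReal (le_of_eq ?_))
      rw [pow_mul]; norm_num
  -- energy
  have hen := sum_en (G := G) hC₀ hW hW0 hΩ hI hP D (by positivity) hC.le ε₁ hε₁.le
    (fun e => eInt c.v e (fun x => ENNReal.ofReal (‖cl (F x) (ev e.2)‖ ^ p)))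
    (fun e => ENNReal.ofReal (δ e))
    (fun e he => eInt_G_le hp hp2 c.rat (g3' e he).1 G (hGE e he).2) hδ2
    (by have h3 := c.s3; rw [hn] at h3; exact h3) g1 g2 g3 g4 g5 g6 g7 g8
  have hJW : (c.J.card : ℝ) / 8 ^ c.n₂ ≤ W := (ENNReal.ofReal_le_ofReal_iff hW0).1 (g8.trans hW)
  refine ⟨_, P86.cells hΩ hI hP, G, ?_, ?_, hG, ?_, ?_, ?_, ⟨c.K, c.Ksub, c.Kcomp.measurableSet,
    c.Kvol.trans (ENNReal.ofReal_le_ofReal (by linarith)), ?_, ?_⟩, hBd,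
    ⋃ z ∈ c.J, dyc c.v c.n₂ z, iUnion₂_subset gsub,
    c.J.isCompact_biUnion fun z _ => P86.isCompact_dyc _ _ _, ?_⟩
  · rw [gR]
    exact MeasurableSet.biUnion c.J.countable_toSet fun z _ => (isClosed_shrink _ _ _ _).measurableSet
  · rw [gR]
    exact iUnion₂_subset fun z hz => (boxR_sub_cell _ _ _ _).trans (gsub z hz)
  · -- derivative on `R`
    rw [gR]
    calc ∑ j, ∫⁻ x in ⋃ z ∈ c.J, boxR c.v c.n₂ k₁ z,
          ENNReal.ofReal (‖fderiv ℝ G x (ev j) - cl (F x) (ev j)‖ ^ p)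
        ≤ ∑ j, ∑ z ∈ c.J, ∫⁻ x in boxR c.v c.n₂ k₁ z,
          ENNReal.ofReal (‖fderiv ℝ G x (ev j) - cl (F x) (ev j)‖ ^ p) :=
          Finset.sum_le_sum fun j _ => setLIntegral_biUnion_le _ _ _
      _ ≤ ∑ j, ∑ z ∈ c.J,
          (2 * (∫⁻ x in boxR c.v c.n₂ k₁ z,
            ENNReal.ofReal (‖fderiv ℝ G x (ev j) - c.L z (ev j)‖ ^ p)) +
          2 * (∫⁻ x in dyc c.v c.n₂ z,
            ENNReal.ofReal (‖cl (F x) (ev j) - c.L z (ev j)‖ ^ p))) := by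
          refine Finset.sum_le_sum fun j _ => Finset.sum_le_sum fun z _ =>
            (int_le_G hp hp2 G F (c.L z) j _).trans ?_
          gcongr
          exact boxR_sub_cell _ _ _ _
      _ = 2 * (∑ z ∈ c.J, ∑ j, ∫⁻ x in boxR c.v c.n₂ k₁ z,
            ENNReal.ofReal (‖fderiv ℝ G x (ev j) - c.L z (ev j)‖ ^ p)) +
          2 * (∑ z ∈ c.J, ∑ j, ∫⁻ x in dyc c.v c.n₂ z,
            ENNReal.ofReal (‖cl (F x) (ev j) - c.L z (ev j)‖ ^ p)) := by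
          rw [Finset.sum_comm]
          simp only [Finset.mul_sum, Finset.sum_add_distrib]
      _ ≤ 2 * (∑ _z ∈ c.J, ENNReal.ofReal δ₀) + 2 * ENNReal.ofReal ε₁ := by
          gcongr with z hz
          · exact (hGb z hz).2.1
          · exact c.s1
      _ ≤ 2 * ENNReal.ofReal ε₁ + 2 * ENNReal.ofReal ε₁ := by
          gcongr
          rw [Finset.sum_const, nsmul_eq_mul, ← ENNReal.ofReal_natCast,
            ← ENNReal.ofReal_mul (by positivity)]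
          exact ENNReal.ofReal_le_ofReal hδ₀2
      _ ≤ ENNReal.ofReal ε := by
          have e2 : (2:ℝ≥0∞) = ENNReal.ofReal 2 := by norm_num
          rw [e2, ← ENNReal.ofReal_mul (by norm_num), ← ENNReal.ofReal_add (by positivity)
            (by positivity)]
          exact ENNReal.ofReal_le_ofReal (by linarith)
  · exact hen.trans (ENNReal.ofReal_le_ofReal num2)
  · -- the energy of `f` off `R`
    rw [gR]
    have hsub : Ω \ (⋃ z ∈ c.J, boxR c.v c.n₂ k₁ z) ⊆ (Ω \ ⋃ z ∈ c.J, dyc c.v c.n₂ z) ∪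
        ⋃ z ∈ c.J, (dyc c.v c.n₂ z \ boxR c.v c.n₂ k₁ z) := by
      rintro x ⟨hx, hxR⟩
      by_cases h : x ∈ ⋃ z ∈ c.J, dyc c.v c.n₂ z
      · right
        obtain ⟨z, hz, hxz⟩ := mem_iUnion₂.1 h
        exact mem_iUnion₂.2 ⟨z, hz, hxz, fun h => hxR (mem_iUnion₂.2 ⟨z, hz, h⟩)⟩
      · exact Or.inl ⟨hx, h⟩
    calc ∑ j, ∫⁻ x in Ω \ (⋃ z ∈ c.J, boxR c.v c.n₂ k₁ z),
          ENNReal.ofReal (‖cl (F x) (ev j)‖ ^ p)
        ≤ ∑ j, ((∫⁻ x in Ω \ ⋃ z ∈ c.J, dyc c.v c.n₂ z,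
            ENNReal.ofReal (‖cl (F x) (ev j)‖ ^ p)) +
          ∑ z ∈ c.J, ∫⁻ x in dyc c.v c.n₂ z \ boxR c.v c.n₂ k₁ z,
            ENNReal.ofReal (‖cl (F x) (ev j)‖ ^ p)) := by
          refine Finset.sum_le_sum fun j _ => ?_
          refine (lintegral_mono_set hsub).trans ((lintegral_union_le _ _ _).trans ?_)
          gcongr
          exact setLIntegral_biUnion_le _ _ _
      _ ≤ ∑ j, ((∫⁻ x in Ω \ ⋃ z ∈ c.J, dyc c.v c.n₂ z,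
            ENNReal.ofReal (‖cl (F x) (ev j)‖ ^ p)) +
          ∑ z ∈ c.J, (2 * (∫⁻ x in dyc c.v c.n₂ z,
            ENNReal.ofReal (‖cl (F x) (ev j) - c.L z (ev j)‖ ^ p)) +
            2 * ENNReal.ofReal (M ^ p) * ENNReal.ofReal (C₀ / 2 ^ k₁ / 8 ^ c.n₂))) := by
          gcongr with j _ z hz
          refine (int_le_F hp hp2 F (c.L z) j (hL z hz j) _).trans ?_
          gcongr
          · exact sdiff_subset
          · exact g9 z hz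
      _ = (∑ j, ∫⁻ x in Ω \ ⋃ z ∈ c.J, dyc c.v c.n₂ z,
            ENNReal.ofReal (‖cl (F x) (ev j)‖ ^ p)) +
          (2 * (∑ z ∈ c.J, ∑ j, ∫⁻ x in dyc c.v c.n₂ z,
            ENNReal.ofReal (‖cl (F x) (ev j) - c.L z (ev j)‖ ^ p)) +
          3 * (c.J.card * (2 * ENNReal.ofReal (M ^ p) *
            ENNReal.ofReal (C₀ / 2 ^ k₁ / 8 ^ c.n₂)))) := by
          rw [Finset.sum_add_distrib]
          congr 1
          rw [Finset.sum_comm (s := c.J)]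
          simp only [Finset.mul_sum, Finset.sum_add_distrib, Finset.sum_const, nsmul_eq_mul,
            Finset.card_univ, Fintype.card_fin]
          push_cast
          rfl
      _ ≤ ENNReal.ofReal ε₁ + (2 * ENNReal.ofReal ε₁ +
          ENNReal.ofReal (6 * M ^ p * C₀ * W / 2 ^ k₁)) := by
          gcongr
          · exact c.s2
          · exact c.s1
          · have e2 : (2:ℝ≥0∞) = ENNReal.ofReal 2 := by norm_num
            have e3 : (3:ℝ≥0∞) = ENNReal.ofReal 3 := by norm_num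
            rw [e2, e3, ← ENNReal.ofReal_mul (by norm_num), ← ENNReal.ofReal_mul (by positivity),
              ← ENNReal.ofReal_natCast, ← ENNReal.ofReal_mul (by positivity),
              ← ENNReal.ofReal_mul (by norm_num)]
            refine ENNReal.ofReal_le_ofReal ?_
            calc 3 * (c.J.card * (2 * M ^ p * (C₀ / 2 ^ k₁ / 8 ^ c.n₂))) =
                  6 * M ^ p * C₀ * (c.J.card / 8 ^ c.n₂) / 2 ^ k₁ := by field_simp; ring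
              _ ≤ 6 * M ^ p * C₀ * W / 2 ^ k₁ := by gcongr
      _ ≤ ENNReal.ofReal ε := by
          have e2 : (2:ℝ≥0∞) = ENNReal.ofReal 2 := by norm_num
          rw [e2, ← ENNReal.ofReal_mul (by norm_num), ← ENNReal.ofReal_add (by positivity)
            (by positivity), ← ENNReal.ofReal_add (by positivity) (by positivity)]
          exact ENNReal.ofReal_le_ofReal (by linarith)
  · -- zero order on `R`
    rintro x ⟨hxK, hxR⟩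
    rw [gR] at hxR
    obtain ⟨z, hz, hxz⟩ := mem_iUnion₂.1 hxR
    have h1 := (hGb z hz).1 x hxz
    have hcell := boxR_sub_cell _ _ _ _ hxz
    have h2 := near_aff c hκ hM hz hxK hcell hcell
    have h3 : (M + 1) / 2 ^ c.n₂ ≤ ε₁ := le_trans (by gcongr; norm_num) c.small
    calc ‖G x - f x‖ ≤ ‖G x - c.A z x‖ + ‖c.A z x - f x‖ := norm_sub_le_norm_sub_add_norm_sub _ _ _
      _ ≤ ε := by linarith
  · -- zero order off `R`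
    rintro i x ⟨hxK, hxi⟩ y ⟨t, ht, hyk, hyl, hyt⟩
    have hxi' : x ∈ dyc c.v i.1.1 i.1.2 := by rw [← P86.cube_eq]; exact hxi
    rw [mem_bd] at ht
    have hysq : y ∈ squ c.v t.1 := (P86.mem_squ_iff c.v t.1 y).1 ⟨hyk, hyl⟩
    have hyi : y ∈ dyc c.v i.1.1 i.1.2 := ht hysq
    have hxy := dist_dyc hyi hxi'
    have hgood : c.n₂ ≤ i.1.1 → ∀ e ∈ GE Ω c.v c.n₂ k₁ k₀ c.J, y ∈ edge c.v e →
        ‖G y - f x‖ ≤ ε := by
      intro hgen e he hye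
      have h1 := (hGE e he).1 y hye
      have h2 : δ e ≤ ε₁ := by
        have := (ENNReal.le_tsum e).trans hδ2
        exact (ENNReal.ofReal_le_ofReal_iff hε₁.le).1 this
      have h3 : ‖y - x‖ ≤ 2 / 2 ^ c.n₂ := by
        refine hxy.trans ?_
        have : (1:ℝ) / 2 ^ i.1.1 ≤ 1 / 2 ^ c.n₂ :=
          one_div_le_one_div_of_le (by positivity) (pow_le_pow_right₀ (by norm_num) hgen)
        refine this.trans ?_
        gcongr; norm_num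
      have h4 := (c.osc x hxK y h3).2
      calc ‖G y - f x‖ ≤ ‖G y - f y‖ + ‖f y - f x‖ := norm_sub_le_norm_sub_add_norm_sub _ _ _
        _ ≤ ε := by linarith
    have hedge : t ∉ (P86.cells hΩ hI hP).ctrl → ∃ e ∈ sqE t.1, y ∈ edge c.v e := by
      intro hc
      rcases hyt with h | ⟨l, hl, hb⟩
      · exact absurd h hc
      · exact mem_sqE_of hysq hl hb
    by_cases hIT : i.1 ∈ IT Ω c.v c.n₂ k₁ k₀ c.J
    · obtain ⟨h1, h2, h3, h4⟩ := g1 i.1 i.2 hIT t.1 t.2.1 ht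
      obtain ⟨e, he, hye⟩ := hedge fun ⟨r, hr, hsub⟩ => h3 r hr hsub
      have hgen : c.n₂ ≤ i.1.1 := by
        obtain ⟨-, -, h5, -⟩ := specTiles Ω (c.n₂ + k₁ + k₀) c.v hΩ hb hΩb.2.1.nonempty
        have h6 := (specTiles Ω (c.n₂ + k₁ + k₀) c.v hΩ hb hΩb.2.1.nonempty).2.2.1 i.1 hIT.1
        omega
      exact hgood hgen e (h4 e he) hye
    · obtain ⟨hi1, z, hz, hiB, hsq⟩ := g2 i.1 i.2 hIT
      have hgen : c.n₂ ≤ i.1.1 := by omega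
      have hxcell : x ∈ dyc c.v c.n₂ z := boxB_sub_cell _ _ _ _ (hiB hxi')
      have hycell : y ∈ dyc c.v c.n₂ z := boxB_sub_cell _ _ _ _ (hiB hyi)
      have h2 := near_aff c hκ hM hz hxK hxcell hycell
      have h3 : (M + 2) / 2 ^ c.n₂ ≤ ε₁ := c.small
      have h3' : (M + 1) / 2 ^ c.n₂ + 1 / 2 ^ c.n₂ = (M + 2) / 2 ^ c.n₂ := by ring
      have hpos : (0:ℝ) < 1 / 2 ^ c.n₂ := by positivity
      have haff : ‖G y - c.A z y‖ ≤ max δ₀ (1 / 2 ^ c.n₂) → ‖G y - f x‖ ≤ ε := by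
        intro h
        have h5 : max δ₀ (1 / 2 ^ c.n₂) ≤ ε₁ + 1 / 2 ^ c.n₂ :=
          max_le (by linarith) (by linarith)
        calc ‖G y - f x‖ ≤ ‖G y - c.A z y‖ + ‖c.A z y - f x‖ :=
              norm_sub_le_norm_sub_add_norm_sub _ _ _
          _ ≤ ε := by linarith
      rcases hsq t.1 t.2.1 ht with ⟨h4, h5, h6⟩ | ⟨h4, h5⟩
      · have hyR : y ∈ boxR c.v c.n₂ k₁ z := by
          have := h5 hysq
          exact (isClosed_shrink _ _ _ _).frontier_subset this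
        exact haff (((hGb z hz).1 y hyR).trans (le_max_left _ _))
      · obtain ⟨e, he, hye⟩ := hedge fun ⟨r, hr, hsub⟩ => h4 r hr hsub
        rcases h5 with ⟨h6, h7⟩ | ⟨h6, h7⟩
        · exact hgood hgen e (h7 e he).1 hye
        · rcases h7 e he with h8 | h8
          · exact haff ((((hGb z hz).2.2.2 e h8.1 h8.2.1 h8.2.2).1 y hye).trans (le_max_right _ _))
          · obtain ⟨j, hj, hyj⟩ := mem_subEdge hye k₀
            exact hgood hgen _ (h8.2.2 j hj).1 hyj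
  · -- Whitney cells away from the good cells
    intro i x hxi hxK
    have hxi' : x ∈ dyc c.v i.1.1 i.1.2 := by rw [← P86.cube_eq]; exact hxi
    have hIT : i.1 ∈ IT Ω c.v c.n₂ k₁ k₀ c.J := by
      by_contra hcon
      obtain ⟨-, z, hz, hiB, -⟩ := g2 i.1 i.2 hcon
      exact hxK (mem_iUnion₂.2 ⟨z, hz, boxB_sub_cell _ _ _ _ (hiB hxi')⟩)
    have h6 := ((specTiles Ω (c.n₂ + k₁ + k₀) c.v hΩ hb hΩb.2.1.nonempty).2.2.2.1 i.1 hIT.1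
      x hxi').1
    have h7 : rho Ω (c.n₂ + k₁ + k₀) x ≤ infDist x Ωᶜ := min_le_right _ _
    have h8 : 2 * (P86.cells hΩ hI hP).ρ i = 1 / 2 ^ i.1.1 := by
      show 2 * (1 / 2 / 2 ^ i.1.1 : ℝ) = 1 / 2 ^ i.1.1
      ring
    rw [h8]
    exact h6.trans h7


/-- adapted from `AB/Sum293.lean` (helper293) -/
theorem specFDN_of (hCh : SpecChoice) (hGa : SpecGaugeN) : SpecFDN := by
  intro p Ω Λ f F hp hp2 hΩ hΛ hf hF hFD ε hε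
  obtain ⟨C₀, hC₀, hgeo⟩ := specGeo
  have hb := isBounded_of hΩ
  have hfin : volume Ω ≠ ⊤ := hb.measure_lt_top.ne
  set W := (volume Ω).toReal with hWd
  have hW0 : 0 ≤ W := ENNReal.toReal_nonneg
  have hW : volume Ω ≤ ENNReal.ofReal W := (ENNReal.ofReal_toReal hfin).ge
  obtain ⟨ε₁, hε₁, hε₁1, hε₁2⟩ : ∃ ε₁ > 0, ε₁ ≤ ε / 8 ∧ 16 * C₀ * ε₁ ≤ ε / 2 := by
    refine ⟨min (ε / 8) (ε / (32 * C₀)), by positivity, min_le_left _ _, ?_⟩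
    calc 16 * C₀ * min (ε / 8) (ε / (32 * C₀)) ≤ 16 * C₀ * (ε / (32 * C₀)) := by
          gcongr; exact min_le_right _ _
      _ = ε / 2 := by field_simp; ring
  obtain ⟨θ, hθ, M, hM, hch⟩ := hCh p Ω Λ f F hp hp2 hΩ hΛ hf hF hFD ε₁ hε₁
  obtain ⟨C, hC, hga⟩ := hGa p θ M hp hp2 hθ hM
  have hMp : 0 ≤ M ^ p := by positivity
  set Q₁ : ℝ := C₀ * W * (4 * C₀ * (6 + 4 * M ^ p) + (48 * (6 + 4 * M ^ p) + 30 * C)) with hQ₁
  set Q₂ : ℝ := 6 * M ^ p * C₀ * W with hQ₂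
  have hQ₁0 : 0 ≤ Q₁ := by positivity
  have hQ₂0 : 0 ≤ Q₂ := by positivity
  obtain ⟨k₁, hk₁, hkQ⟩ : ∃ k₁ : ℕ, 3 ≤ k₁ ∧ (Q₁ + Q₂) / 2 ^ k₁ ≤ ε / 2 := by
    have h1 : Tendsto (fun k : ℕ => (Q₁ + Q₂) / 2 ^ k) atTop (𝓝 0) := by
      have h2 := tendsto_pow_atTop_nhds_zero_of_lt_one (show (0:ℝ) ≤ 1 / 2 by norm_num)
        (show (1 / 2 : ℝ) < 1 by norm_num)
      have h3 := h2.const_mul (Q₁ + Q₂)
      rw [mul_zero] at h3
      refine h3.congr fun k => ?_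
      rw [one_div, inv_pow]; rfl
    have h4 := h1.eventually (ge_mem_nhds (show (0:ℝ) < ε / 2 by positivity))
    obtain ⟨k, hk1, hk2⟩ := (h4.and (eventually_ge_atTop 3)).exists
    exact ⟨k, hk2, hk1⟩
  obtain ⟨k₀, κ₀, hκ₀, hga'⟩ := hga k₁ hk₁
  obtain ⟨c⟩ := hch k₁ k₀ (by omega) (min κ₀ 1) (by positivity)
  -- the errors on the edges
  obtain ⟨d, hd, hdsum⟩ := ENNReal.exists_pos_sum_of_countable
    (ε := ENNReal.ofReal ε₁) (ENNReal.ofReal_pos.2 hε₁).ne' (Idx × Fin 3)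
  set δ : Idx × Fin 3 → ℝ := fun e => min (d e : ℝ) (1 / 2 ^ e.1.1) with hδdef
  have hδ : ∀ e, 0 < δ e := fun e => lt_min (by exact_mod_cast hd e) (by positivity)
  have hδ1 : ∀ e, δ e ≤ 1 / 2 ^ e.1.1 := fun e => min_le_right _ _
  have hδ2 : ∑' e, ENNReal.ofReal (δ e) ≤ ENNReal.ofReal ε₁ := by
    refine le_trans (ENNReal.tsum_le_tsum fun e => ?_) hdsum.le
    calc ENNReal.ofReal (δ e) ≤ ENNReal.ofReal (d e) := ENNReal.ofReal_le_ofReal (min_le_left _ _)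
      _ = d e := ENNReal.ofReal_coe_nnreal
  set δ₀ : ℝ := ε₁ / (c.J.card + 1) with hδ₀
  have hcard : (0:ℝ) ≤ c.J.card := Nat.cast_nonneg _
  have hδ₀0 : 0 < δ₀ := by positivity
  have hδ₀1 : δ₀ ≤ ε₁ := div_le_self hε₁.le (by linarith)
  have hδ₀2 : c.J.card * δ₀ ≤ ε₁ := by
    rw [hδ₀, ← mul_div_assoc, div_le_iff₀ (by positivity)]
    nlinarith
  obtain ⟨G, hGd, hGbd, hGe, hGb⟩ := hga' ε₁ Ω Λ f F hε₁ hΩ hΛ hf hF (c.mono (min_le_left _ _)) δ hδ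
    δ₀ hδ₀0
  have hkpos : (0:ℝ) < 2 ^ k₁ := by positivity
  have hq1 : Q₁ / 2 ^ k₁ ≤ ε / 2 := le_trans (by gcongr; linarith) hkQ
  have hq2 : Q₂ / 2 ^ k₁ ≤ ε / 2 := le_trans (by gcongr; linarith) hkQ
  exact goodApproxN_of hp hp2 hΩ c (min_le_right _ _) hM hε₁ hk₁ δ hδ hδ1 hδ2 hδ₀0 hδ₀1 hδ₀2 hGd
    hGbd hC hGe hGb hC₀ hW hW0 hgeo (by linarith) (by linarith) (by linarith)

end P073.BV567
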