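import Vale.Agent.P073.BV567.Spec
import Vale.Agent.P073.RED.GlueH225

/-!
# P073, boundary values (helper567): closeness at the boundary

`BdTo Ω f g`: near the boundary of `Ω` every value of `g` is close to a value of `f` at a nearby
point. This relation is transitive, and it carries boundary limits of `f` to `g`.
-/

open Set Metric Topology MeasureTheory Filter
open scoped ENNReal

namespace P073.BV567

open Vale.Agent.P073.St (V Mat IsHomeo IsDiffeo IsBoundedDomain IsSobolev)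
open Vale.Agent.P073.SQ (ev cube Cells)
open Vale.Agent.P073.AB
open Vale.Agent.P073.LOC (BdClose)

theorem bdd_of_domain {Ω : Set V} (hΩ : IsBoundedDomain Ω) : Bornology.IsBounded Ω :=
  Vale.Agent.P073.PK.isBounded_of_domain hΩ

theorem compl_nonempty {Ω : Set V} (hb : Bornology.IsBounded Ω) : (Ωᶜ).Nonempty := by
  by_contra h
  rw [not_nonempty_iff_eq_empty, compl_empty_iff] at h
  rw [h] at hb
  exact NormedSpace.unbounded_univ ℝ V hb

theorem exists_infDist {Ω K : Set V} (hΩ : IsOpen Ω) (hne : (Ωᶜ).Nonempty) (hK : K ⊆ Ω)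
    (hKc : IsCompact K) : ∃ r > 0, ∀ y ∈ K, r ≤ infDist y Ωᶜ := by
  rcases K.eq_empty_or_nonempty with rfl | hKn
  · exact ⟨1, one_pos, fun y hy => absurd hy (notMem_empty y)⟩
  · obtain ⟨y, hy, hmin⟩ := hKc.exists_isMinOn hKn (continuous_infDist_pt Ωᶜ).continuousOn
    refine ⟨infDist y Ωᶜ, ?_, fun z hz => hmin hz⟩
    exact (hΩ.isClosed_compl.notMem_iff_infDist_pos hne).1 fun h => h (hK hy)

theorem infDist_lt_of_close {Ω : Set V} {x y : V} {a b : ℝ} (hx : infDist x Ωᶜ < a)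
    (hy : ‖y - x‖ ≤ b) : infDist y Ωᶜ < a + b := by
  have h6 : infDist y Ωᶜ ≤ infDist x Ωᶜ + dist y x := infDist_le_infDist_add_dist
  rw [dist_eq_norm] at h6
  linarith

/-- near the boundary, the values of `g` are close to values of `f` at nearby points -/
def BdTo (Ω : Set V) (f g : V → V) : Prop :=
  ∀ δ > 0, ∃ t > 0, ∀ x ∈ Ω, infDist x Ωᶜ < t → ∃ y ∈ Ω, ‖y - x‖ ≤ δ ∧ ‖g x - f y‖ ≤ δ

theorem BdTo.trans {Ω : Set V} {f g h : V → V} (h1 : BdTo Ω f g) (h2 : BdTo Ω g h) :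
    BdTo Ω f h := by
  intro δ hδ
  obtain ⟨t₁, ht₁, H₁⟩ := h1 (δ / 2) (half_pos hδ)
  obtain ⟨t₂, ht₂, H₂⟩ := h2 (min (δ / 2) (t₁ / 2)) (lt_min (half_pos hδ) (half_pos ht₁))
  refine ⟨min t₂ (t₁ / 2), lt_min ht₂ (half_pos ht₁), fun x hx hxt => ?_⟩
  obtain ⟨y, hy, hyx, hgy⟩ := H₂ x hx (hxt.trans_le (min_le_left _ _))
  obtain ⟨z, hz, hzy, hfz⟩ := H₁ y hy (by
    have := infDist_lt_of_close (hxt.trans_le (min_le_right _ _)) (hyx.trans (min_le_right _ _))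
    linarith)
  refine ⟨z, hz, ?_, ?_⟩
  · calc ‖z - x‖ ≤ ‖z - y‖ + ‖y - x‖ := norm_sub_le_norm_sub_add_norm_sub _ _ _
      _ ≤ δ / 2 + δ / 2 := add_le_add hzy (hyx.trans (min_le_left _ _))
      _ = δ := by ring
  · calc ‖h x - f z‖ ≤ ‖h x - g y‖ + ‖g y - f z‖ := norm_sub_le_norm_sub_add_norm_sub _ _ _
      _ ≤ δ / 2 + δ / 2 := add_le_add (hgy.trans (min_le_left _ _)) hfz
      _ = δ := by ring

/-- boundary limits are carried over -/
theorem BdTo.tendsto {Ω : Set V} (hΩ : IsOpen Ω) {f g : V → V} (h : BdTo Ω f g) {a b : V}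
    (ha : a ∈ frontier Ω) (hf : Tendsto f (𝓝[Ω] a) (𝓝 b)) : Tendsto g (𝓝[Ω] a) (𝓝 b) := by
  have haΩ : a ∈ Ωᶜ := by
    rw [hΩ.frontier_eq] at ha
    exact ha.2
  rw [Metric.tendsto_nhdsWithin_nhds] at hf ⊢
  intro δ hδ
  obtain ⟨η, hη, hf⟩ := hf (δ / 2) (half_pos hδ)
  obtain ⟨t, ht, H⟩ := h (min (δ / 4) (η / 2)) (lt_min (by positivity) (half_pos hη))
  refine ⟨min t (η / 2), lt_min ht (half_pos hη), fun x hx hxa => ?_⟩
  obtain ⟨y, hy, hyx, hgy⟩ := H x hx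
    ((infDist_le_dist_of_mem haΩ).trans_lt (hxa.trans_le (min_le_left _ _)))
  have h1 : dist y a < η := by
    have h2 : dist x a < η / 2 := hxa.trans_le (min_le_right _ _)
    have h3 : dist y x ≤ η / 2 := by
      rw [dist_eq_norm]; exact hyx.trans (min_le_right _ _)
    calc dist y a ≤ dist y x + dist x a := dist_triangle _ _ _
      _ < η := by linarith
  have h4 := hf hy h1
  have h5 : dist (g x) (f y) ≤ δ / 4 := by
    rw [dist_eq_norm]; exact hgy.trans (min_le_left _ _)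
  calc dist (g x) b ≤ dist (g x) (f y) + dist (f y) b := dist_triangle _ _ _
    _ < δ := by linarith

/-- cluster values at the boundary are carried over -/
theorem BdTo.cluster {Ω : Set V} (hΩ : IsOpen Ω) {f g : V → V} (h : BdTo Ω f g) {a b : V}
    (ha : a ∈ frontier Ω) (hg : MapClusterPt b (𝓝[Ω] a) g) : MapClusterPt b (𝓝[Ω] a) f := by
  have haΩ : a ∈ Ωᶜ := by
    rw [hΩ.frontier_eq] at ha
    exact ha.2
  rw [mapClusterPt_iff_frequently] at hg ⊢
  intro s hs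
  obtain ⟨δ, hδ, hδs⟩ := Metric.mem_nhds_iff.1 hs
  rw [Filter.frequently_iff]
  intro u hu
  obtain ⟨η, hη, hηu⟩ := Metric.mem_nhdsWithin_iff.1 hu
  obtain ⟨t, ht, H⟩ := h (min (δ / 2) (η / 2)) (lt_min (half_pos hδ) (half_pos hη))
  have hw : ball a (min t (η / 2)) ∩ Ω ∈ 𝓝[Ω] a :=
    Metric.mem_nhdsWithin_iff.2 ⟨min t (η / 2), lt_min ht (half_pos hη), Subset.rfl⟩
  obtain ⟨x, ⟨hxa, hx⟩, hgx⟩ := (Filter.frequently_iff.1
    (hg (ball b (δ / 2)) (ball_mem_nhds b (half_pos hδ)))) hw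
  rw [mem_ball] at hxa hgx
  obtain ⟨y, hy, hyx, hfy⟩ := H x hx
    ((infDist_le_dist_of_mem haΩ).trans_lt (hxa.trans_le (min_le_left _ _)))
  refine ⟨y, hηu ⟨?_, hy⟩, hδs ?_⟩
  · rw [mem_ball]
    have h2 : dist x a < η / 2 := hxa.trans_le (min_le_right _ _)
    have h3 : dist y x ≤ η / 2 := by
      rw [dist_eq_norm]; exact hyx.trans (min_le_right _ _)
    calc dist y a ≤ dist y x + dist x a := dist_triangle _ _ _
      _ < η := by linarith
  · rw [mem_ball]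
    have h3 : dist (f y) (g x) ≤ δ / 2 := by
      rw [dist_comm, dist_eq_norm]; exact hfy.trans (min_le_left _ _)
    calc dist (f y) b ≤ dist (f y) (g x) + dist (g x) b := dist_triangle _ _ _
      _ < δ := by linarith

/-- both directions -/
def BdEq (Ω : Set V) (f g : V → V) : Prop := BdTo Ω f g ∧ BdTo Ω g f

theorem BdEq.trans {Ω : Set V} {f g h : V → V} (h1 : BdEq Ω f g) (h2 : BdEq Ω g h) :
    BdEq Ω f h := ⟨h1.1.trans h2.1, h2.2.trans h1.2⟩

theorem BdEq.cluster_iff {Ω : Set V} (hΩ : IsOpen Ω) {f g : V → V} (h : BdEq Ω f g) {a b : V}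
    (ha : a ∈ frontier Ω) : MapClusterPt b (𝓝[Ω] a) f ↔ MapClusterPt b (𝓝[Ω] a) g :=
  ⟨fun h' => h.2.cluster hΩ ha h', fun h' => h.1.cluster hΩ ha h'⟩

theorem BdEq.tendsto_iff {Ω : Set V} (hΩ : IsOpen Ω) {f g : V → V} (h : BdEq Ω f g) {a b : V}
    (ha : a ∈ frontier Ω) : Tendsto f (𝓝[Ω] a) (𝓝 b) ↔ Tendsto g (𝓝[Ω] a) (𝓝 b) :=
  ⟨fun h' => h.1.tendsto hΩ ha h', fun h' => h.2.tendsto hΩ ha h'⟩

/-- **(M1)** with boundary behaviour -/
def SpecM1N : Prop :=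
  ∀ (p : ℝ) (Ω Λ : Set V) (f : V → V) (F : V → Mat), 1 ≤ p → p < 2 → IsBoundedDomain Ω →
    IsBoundedDomain Λ → IsHomeo Ω Λ f → IsSobolev p Ω f F → FinDist Ω F →
    ∀ ε > 0, ∃ g : V → V, IsDiffeo Ω Λ g ∧ err p Ω f F g ≤ ENNReal.ofReal ε ∧ BdEq Ω f g

/-- **the full theorem with boundary behaviour** -/
def SpecAllN : Prop :=
  ∀ (p : ℝ) (Ω Λ : Set V) (f : V → V) (F : V → Mat), 1 ≤ p → p < 2 → IsBoundedDomain Ω →
    IsBoundedDomain Λ → IsHomeo Ω Λ f → IsSobolev p Ω f F →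
    ∀ ε > 0, ∃ g : V → V, IsDiffeo Ω Λ g ∧ err p Ω f F g ≤ ENNReal.ofReal ε ∧ BdEq Ω f g

theorem bdEq_of_bdClose {Ω : Set V} (hΩ : IsOpen Ω) (hb : Bornology.IsBounded Ω) {f G : V → V}
    (h : BdClose Ω f G) : BdEq Ω f G := by
  have key : ∀ δ > 0, ∃ t > 0, ∀ x ∈ Ω, infDist x Ωᶜ < t → ‖G x - f x‖ ≤ δ := by
    intro δ hδ
    obtain ⟨K, hK, hKc, H⟩ := h δ hδ
    obtain ⟨r, hr, hr'⟩ := exists_infDist hΩ (compl_nonempty hb) hK hKc
    exact ⟨r, hr, fun x hx hx' => H x ⟨hx, fun hxK => absurd (hr' x hxK) (not_le.2 hx')⟩⟩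
  constructor <;> intro δ hδ <;> obtain ⟨t, ht, H⟩ := key δ hδ <;>
    refine ⟨t, ht, fun x hx hxt => ⟨x, hx, by rw [sub_self, norm_zero]; exact hδ.le, ?_⟩⟩
  · exact H x hx hxt
  · rw [norm_sub_rev]; exact H x hx hxt

theorem norm_sub_le_cube {c : V} {ρ : ℝ} (hρ : 0 < ρ) {x y : V} (hx : x ∈ cube c ρ)
    (hy : y ∈ cube c ρ) : ‖x - y‖ ≤ 2 * ρ := by
  rw [pi_norm_le_iff_of_nonneg (by positivity)]
  intro l
  have h1 := hx l
  have h2 := hy l
  rw [Pi.sub_apply, Real.norm_eq_abs]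
  rw [abs_le] at h1 h2 ⊢
  constructor <;> linarith [h1.1, h1.2, h2.1, h2.2]

/-- the squeezed map has the same boundary behaviour -/
theorem bdEq_comp {Ω R : Set V} (hΩ : IsOpen Ω) (hb : Bornology.IsBounded Ω) (W : Cells Ω R)
    {G s : V → V} {K₀ : Set V} (hK₀ : K₀ ⊆ Ω) (hK₀c : IsCompact K₀)
    (hW : ∀ i, ∀ x ∈ cube (W.c i) (W.ρ i), x ∉ K₀ → 2 * W.ρ i ≤ infDist x Ωᶜ)
    (hs : IsDiffeo Ω Ω s) (hsR : ∀ x ∈ R, s x = x)
    (hsi : ∀ i, ∀ x ∈ cube (W.c i) (W.ρ i), s x ∈ cube (W.c i) (W.ρ i)) :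
    BdEq Ω G (G ∘ s) := by
  obtain ⟨r, hr, hr'⟩ := exists_infDist hΩ (compl_nonempty hb) hK₀ hK₀c
  obtain ⟨s', ⟨h1, h2⟩, -, -⟩ := hs
  constructor <;> intro δ hδ <;>
    refine ⟨min r δ, lt_min hr hδ, fun x hx hxt => ?_⟩ <;>
    have e1 : infDist x Ωᶜ < r := hxt.trans_le (min_le_left _ _) <;>
    have e2 : infDist x Ωᶜ < δ := hxt.trans_le (min_le_right _ _) <;>
    have hxK : x ∉ K₀ := fun h => absurd (hr' x h) (not_le.2 e1)
  · refine ⟨s x, (h1 x hx).1, ?_, ?_⟩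
    · rcases W.cover hx with h | h
      · rw [hsR x h, sub_self, norm_zero]; exact hδ.le
      · obtain ⟨i, hi⟩ := mem_iUnion.1 h
        exact (norm_sub_le_cube (W.ρpos i) (hsi i x hi) hi).trans ((hW i x hi hxK).trans e2.le)
    · show ‖G (s x) - G (s x)‖ ≤ δ
      rw [sub_self, norm_zero]; exact hδ.le
  · obtain ⟨hy, hsy⟩ := h2 x hx
    refine ⟨s' x, hy, ?_, ?_⟩
    · rcases W.cover hy with h | h
      · have := hsR _ h
        rw [hsy] at this
        rw [← this, sub_self, norm_zero]; exact hδ.le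
      · obtain ⟨i, hi⟩ := mem_iUnion.1 h
        have hxi := hsi i _ hi
        rw [hsy] at hxi
        exact (norm_sub_le_cube (W.ρpos i) hi hxi).trans ((hW i x hxi hxK).trans e2.le)
    · show ‖G x - G (s (s' x))‖ ≤ δ
      rw [hsy, sub_self, norm_zero]; exact hδ.le

section glue

open Vale.Agent.P073.RED Vale.Agent.P073.RED.GlueH

variable {p : ℝ} {Ω : Set V} {f : V → V} {F : V → Mat} {ι : Type} {ε : ℝ} {K : ι → Set V}
  {u : ι → V → V} {U : ι → V → Mat}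

/-- the glued map has the same boundary behaviour -/
theorem bdEq_glue (hΩ : IsBoundedDomain Ω)
    (hC : ∀ i, Cell p Ω f F ε (K i) (u i) (U i)) (hd : ∀ i j, i ≠ j → Disjoint (K i) (K j)) :
    BdEq Ω f (fun x => f x + glue K u x) := by
  have hb := bdd_of_domain hΩ
  have key : ∀ δ > 0, ∃ t > 0, ∀ x ∈ Ω, infDist x Ωᶜ < t → ∀ i, x ∈ interior (K i) →
      diam (K i) ≤ δ := by
    intro δ hδ
    have hfin := finite_diam hΩ (fun i => (hC i).comp) (fun i => (hC i).sub)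
      (fun i => (hC i).fat) hd hδ
    obtain ⟨r, hr, hr'⟩ := exists_infDist hΩ.1 (compl_nonempty hb)
      (iUnion₂_subset fun i (_ : i ∈ {i | δ ≤ diam (K i)}) => (hC i).sub)
      (hfin.isCompact_biUnion fun i _ => (hC i).comp)
    refine ⟨r, hr, fun x _ hxt i hi => ?_⟩
    by_contra hcon
    exact absurd (hr' x (mem_iUnion₂.2 ⟨i, (not_le.1 hcon).le, interior_subset hi⟩))
      (not_le.2 hxt)
  constructor <;> intro δ hδ <;> obtain ⟨t, ht, H⟩ := key δ hδ <;>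
    refine ⟨t, ht, fun x hx hxt => ?_⟩
  · by_cases hi : ∃ i, x ∈ interior (K i)
    · obtain ⟨i, hi⟩ := hi
      obtain ⟨h', hinv, -, -⟩ := (hC i).diffeo
      obtain ⟨y, hy, hfy⟩ := (hinv.1 x hi).1
      refine ⟨y, (hC i).sub (interior_subset hy), ?_, ?_⟩
      · rw [← dist_eq_norm]
        exact (dist_le_diam_of_mem (hC i).comp.isBounded (interior_subset hy)
          (interior_subset hi)).trans (H x hx hxt i hi)
      · show ‖f x + glue K u x - f y‖ ≤ δ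
        rw [glue_in hd hi, hfy, sub_self, norm_zero]
        exact hδ.le
    · push Not at hi
      refine ⟨x, hx, by rw [sub_self, norm_zero]; exact hδ.le, ?_⟩
      show ‖f x + glue K u x - f x‖ ≤ δ
      rw [glue_off hi, add_zero, sub_self, norm_zero]
      exact hδ.le
  · by_cases hi : ∃ i, x ∈ interior (K i)
    · obtain ⟨i, hi⟩ := hi
      obtain ⟨h', hinv, -, -⟩ := (hC i).diffeo
      obtain ⟨hy, hfy⟩ := hinv.2 (f x) (mem_image_of_mem f hi)
      refine ⟨h' (f x), (hC i).sub (interior_subset hy), ?_, ?_⟩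
      · rw [← dist_eq_norm]
        exact (dist_le_diam_of_mem (hC i).comp.isBounded (interior_subset hy)
          (interior_subset hi)).trans (H x hx hxt i hi)
      · have hfy' : f (h' (f x)) + u i (h' (f x)) = f x := hfy
        show ‖f x - (f (h' (f x)) + glue K u (h' (f x)))‖ ≤ δ
        rw [glue_in hd hy, hfy', sub_self, norm_zero]
        exact hδ.le
    · push Not at hi
      refine ⟨x, hx, by rw [sub_self, norm_zero]; exact hδ.le, ?_⟩
      show ‖f x - (f x + glue K u x)‖ ≤ δ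
      rw [glue_off hi, add_zero, sub_self, norm_zero]
      exact hδ.le

end glue

end P073.BV567
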